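import Vale.Agent.P150.Weak.Spec
import Vale.Agent.P150.Weak.Endpoint
import Vale.Agent.P150.Gap.Blocks

/-!
The endpoint inequality holds for SK couplings with probability tending to one.
-/

open MeasureTheory Filter Finset
open scoped Topology

namespace Vale.Agent.P150.Weak

open Gap

lemma quadLe_scale {n : ℕ} {M : Fin n → Fin n → ℝ} {a b : ℝ} (ha : 0 ≤ a) (h : QuadLe M b) :
    QuadLe (fun i j => a * M i j) (a * b) := fun v => by
  simp only [mul_assoc a, ← Finset.mul_sum]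
  exact mul_le_mul_of_nonneg_left (h v) ha

lemma var_nonneg {n : ℕ} (J : Fin n → Fin n → ℝ) (h : Fin n → ℝ) (f : Conf n → ℝ) :
    0 ≤ var J h f := by
  set m := ev J h f with hm
  have e : (fun x => (f x - m) * (f x - m)) = fun x => f x ^ 2 + (-2 * m * f x + m ^ 2) := by
    funext x; ring
  have h0 : 0 ≤ ev J h (fun x => (f x - m) * (f x - m)) :=
    sum_nonneg fun x _ => mul_nonneg (mu_pos J h x).le (mul_self_nonneg _)
  rw [e, ev_add, ev_add, ev_smul, ev_const, ← hm] at h0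
  rw [var, ← hm]
  linarith

lemma delta_small {b : ℝ} (hb : 0 < b) :
    b * (1 / (200 * (1 + b) ^ 2)) * (1 + b) ≤ 1 / 200 := by
  rw [show b * (1 / (200 * (1 + b) ^ 2)) * (1 + b) = b / (1 + b) / 200 by field_simp]
  gcongr
  exact (div_le_one (by linarith)).2 (by linarith)

lemma entry_small {b : ℝ} (hb : 0 < b) :
    b * (1 / (1000 * (1 + b) ^ 3)) * (1 + b) ^ 2 ≤ 1 / 1000 := by
  rw [show b * (1 / (1000 * (1 + b) ^ 3)) * (1 + b) ^ 2 = b / (1 + b) / 1000 by field_simp]
  gcongr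
  exact (div_le_one (by linarith)).2 (by linarith)

lemma field_ok {c H : ℝ} (hH : 1 ≤ H) (hc : 4 * c ≤ H) :
    c * (1 / Real.cosh H ^ 2) ≤ 1 / 4 := by
  have hs : H ≤ Real.sinh H := Real.self_le_sinh_iff.2 (by linarith)
  have h2 := Real.sinh_lt_cosh H
  have h1 : H ≤ Real.cosh H ^ 2 :=
    (le_self_pow₀ hH two_ne_zero).trans (pow_le_pow_left₀ (by linarith) (hs.trans h2.le) 2)
  rw [mul_one_div, div_le_iff₀ (pow_pos (Real.cosh_pos H) 2)]
  linarith

lemma cost_le {b δ d H : ℝ} (hb : 0 < b) (hδ : 0 < δ) (hd : 0 ≤ d)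
    (hδ1 : δ * (1 + b) ≤ 1 / 200) (hd1 : d * (1 + b) ^ 2 ≤ 1 / 1000)
    (hcosh : (b * (2 + 1) + 2 * (b * (2 + 1)) * (δ + b * (2 + 1)) / δ + 8 * (b ^ 2 * (1 + 1))) *
      (1 / Real.cosh H ^ 2) ≤ 1 / 4) :
    endCost δ (b * (2 + 1)) (b ^ 2 * (1 + 1)) d H ≤ 1 / 2 := by
  have hd0 : 0 ≤ d * b := mul_nonneg hd hb.le
  have h1 : δ * δ ≤ δ / 200 := by nlinarith [mul_nonneg hδ.le hb.le]
  have h2 : d * b ^ 2 ≤ 1 / 1000 := by nlinarith
  rw [endCost]
  linarith [mul_nonneg hδ.le hb.le]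

/-- **The endpoint.** -/
theorem endpointSpec {b : ℝ} (hb : 0 < b) : EndpointSpec b := by
  set q := 1 / (200 * (1 + b) ^ 2) with hq
  have hq0 : 0 < q := by positivity
  obtain ⟨η, hη, hsb⟩ := tendsto_smallBlock hq0
  set δ := b * q with hδdef
  have hδ : 0 < δ := mul_pos hb hq0
  set e := 1 / (1000 * (1 + b) ^ 3) with he
  have he0 : 0 < e := by positivity
  set L := b * (2 + 1) with hLdef
  set R := b ^ 2 * (1 + 1) with hRdef
  set d := b * e with hddef
  have hL : 0 < L := by positivity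
  set c := L + 2 * L * (δ + L) / δ + 8 * R with hc
  have hc0 : 0 < c := by positivity
  set H₀ := max 1 (max (4 * c) (Real.sqrt (2 * L ^ 2 / η))) with hH₀
  refine ⟨η / 4, 2, 4 * H₀, by positivity, two_pos, fun T hT => ?_⟩
  set H := T / 4 with hHdef
  have hH0 : H₀ ≤ H := by rw [hHdef]; linarith
  have hH1 : 1 ≤ H := (le_max_left _ _).trans hH0
  have hH4 : 4 * c ≤ H := ((le_max_left _ _).trans (le_max_right _ _)).trans hH0
  have hHs : Real.sqrt (2 * L ^ 2 / η) ≤ H :=
    ((le_max_right _ _).trans (le_max_right _ _)).trans hH0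
  have hηH : 2 * L ^ 2 ≤ η * H ^ 2 := by
    have := (Real.sqrt_le_left (by linarith)).1 hHs
    rw [div_le_iff₀ hη] at this
    linarith
  have hd1 := entry_small hb
  rw [← he, ← hddef] at hd1
  have hδ1 := delta_small hb
  rw [← hq, ← hδdef] at hδ1
  have hd0 : 0 ≤ d := by positivity
  have hd20 : d ≤ 1 / 20 := by nlinarith [mul_nonneg hd0 hb.le, mul_nonneg hd0 (sq_nonneg b)]
  have hcost : endCost δ L R d H ≤ 1 / 2 := by
    have hcosh := field_ok hH1 hH4
    rw [hc, hLdef, hRdef] at hcosh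
    exact cost_le hb hδ hd0 hδ1 hd1 hcosh
  have hlim := ((tendsto_quadLe one_pos).add (tendsto_quadLe_neg one_pos)).add
    (((tendsto_rows one_pos).add (tendsto_entries he0)).add hsb)
  simp only [add_zero] at hlim
  refine tendsto_of_tendsto_of_tendsto_of_le_of_le' tendsto_const_nhds hlim
    (Eventually.of_forall fun n => bot_le) ?_
  filter_upwards [eventually_ge_atTop 2,
    tendsto_natCast_atTop_atTop.eventually (eventually_ge_atTop (4 / η))] with n hn hnη
  refine (measure_mono (t := (({g | ¬ QuadLe (sym g) ((2 + 1) * √n)} ∪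
      {g | ¬ QuadLe (fun i j => -sym g i j) ((2 + 1) * √n)}) ∪
      (({g | ¬ ∀ i, ∑ j, sym g i j ^ 2 ≤ (1 + 1) * n} ∪
      {g | ¬ ∀ i j, |sym g i j| ≤ e * √n}) ∪
      {g | ¬ ∀ v : Fin n → ℝ, ((Finset.univ.filter fun i => v i ≠ 0).card : ℝ) ≤ η * n →
          ∑ i, ∑ j, sym g i j * v i * v j ≤ q * √n * ∑ i, v i ^ 2}))) fun g hg => ?_).trans
    ((measure_union_le _ _).trans (add_le_add (measure_union_le _ _)
      ((measure_union_le _ _).trans (add_le_add (measure_union_le _ _) le_rfl))))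
  by_contra hne
  simp only [Set.mem_union, Set.mem_ofPred_eq, not_or, not_not] at hne
  obtain ⟨⟨h1, h2⟩, ⟨h3, h4⟩, h6⟩ := hne
  have hn0 : (0:ℝ) < n := by exact_mod_cast (show 0 < n by omega)
  have hs : 0 < √(n:ℝ) := Real.sqrt_pos.2 hn0
  set a := b / √n with hadef
  have ha0 : 0 ≤ a := by positivity
  have has : a * √n = b := div_mul_cancel₀ _ hs.ne'
  have ha2 : a ^ 2 * n = b ^ 2 := by rw [← has, mul_pow, Real.sq_sqrt hn0.le]
  have hJ : IsCoupling (skJ b g) :=
    ⟨fun i j => by simp only [skJ, sym_comm g i j], fun i => by simp [skJ, sym_self]⟩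
  have haL : a * ((2 + 1) * √n) = L := by rw [hLdef]; linear_combination (2 + 1 : ℝ) * has
  have hup : QuadLe (skJ b g) L := by
    have := quadLe_scale ha0 h1
    rwa [haL] at this
  have hlo : QuadLe (fun i j => -skJ b g i j) L := by
    have := quadLe_scale ha0 h2
    rw [haL] at this
    simpa only [skJ, mul_neg] using this
  have hrow : ∀ i, ∑ j, skJ b g i j ^ 2 ≤ R := fun i => by
    simp only [skJ, mul_pow, ← Finset.mul_sum]
    refine (mul_le_mul_of_nonneg_left (h3 i) (sq_nonneg a)).trans (le_of_eq ?_)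
    rw [hRdef]; linear_combination (1 + 1 : ℝ) * ha2
  have hent : ∀ i j, |skJ b g i j| ≤ d := fun i j => by
    rw [skJ, abs_mul, abs_of_nonneg ha0, hddef]
    exact (mul_le_mul_of_nonneg_left (h4 i j) ha0).trans (le_of_eq (by linear_combination e * has))
  have hsmall : SmallBlock (skJ b g) η δ := fun v hv => by
    simp only [skJ, mul_assoc (b / √n), ← Finset.mul_sum]
    refine (mul_le_mul_of_nonneg_left (h6 v hv) ha0).trans (le_of_eq ?_)
    linear_combination (q * ∑ i, v i ^ 2) * has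
  have hηn : 4 ≤ η * n := by
    rw [div_le_iff₀ hη] at hnη; linarith
  refine hg fun u hu f => ?_
  have h2H : 2 * H = T / 2 := by rw [hHdef]; ring
  have key := poincare_endpoint hJ hL hδ (by linarith) hup hlo hsmall hrow hent hd20 hηn hηH
    (by linarith) u (by rw [h2H]; linarith) f
  have hvar : 0 ≤ var (skJ b g) u f := var_nonneg _ _ _
  nlinarith [mul_le_mul_of_nonneg_right hcost hvar]

end Vale.Agent.P150.Weak
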